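import Mathlib.Algebra.MonoidAlgebra.Basic
import Mathlib.Algebra.Field.Subfield.Basic
import Mathlib.Algebra.Order.Group.Defs
import Mathlib.GroupTheory.Finiteness
import Mathlib.GroupTheory.QuotientGroup.Defs

/-!
Definitions used in the statement on group rings of groups acting on trees.
-/

namespace Vale.Agent.P201

universe u v

/-- The left Ore condition. -/
def OreCond (R : Type*) [Ring R] : Prop :=
  ∀ a b : R, b ≠ 0 → ∃ c d : R, c ≠ 0 ∧ c * a = d * b

/-- For every finitely generated subgroup `H`, either the group ring `E[H]` satisfies the left Ore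
condition or `H` has a nontrivial homomorphism to the integers. -/
def OreIndicable (E S : Type*) [DivisionRing E] [Group S] : Prop :=
  ∀ H : Subgroup S, H.FG →
    OreCond (MonoidAlgebra E H) ∨ ∃ f : H →* Multiplicative ℤ, f ≠ 1

/-- The division subring of `D` generated by the image of `E[H]`. -/
def divClosure {E S D : Type*} [DivisionRing E] [Group S] [DivisionRing D]
    (ψ : MonoidAlgebra E S →+* D) (H : Set S) : Subfield D :=
  Subfield.closure {x | ∃ h ∈ H, ∃ e : E, x = ψ (MonoidAlgebra.single h e)}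

/-- `E[S]` has an injective Hughes free homomorphism to a division ring. -/
def HasHughesFree (E : Type v) (S : Type u) [DivisionRing E] [Group S] : Prop :=
  ∃ (D : Type (max u v)) (_ : DivisionRing D) (ψ : MonoidAlgebra E S →+* D),
    Function.Injective ψ ∧
    ∀ H : Subgroup S, H.FG → ∀ (f : H →* Multiplicative ℤ) (t : H),
      f t = Multiplicative.ofAdd 1 → ∀ (s : Finset ℤ) (d : ℤ → D),
      (∀ n ∈ s, d n ∈ divClosure ψ {x | ∃ h : H, f h = 1 ∧ (h : S) = x}) →
      ∑ n ∈ s, d n * ψ (MonoidAlgebra.single ((t : S) ^ n) 1) = 0 → ∀ n ∈ s, d n = 0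

/-- `E[S]` has a Linnell free homomorphism to a division ring. -/
def HasLinnellFree (E : Type v) (S : Type u) [DivisionRing E] [Group S] : Prop :=
  ∃ (D : Type (max u v)) (_ : DivisionRing D) (ψ : MonoidAlgebra E S →+* D),
    ∀ (N : Subgroup S) (s : Finset S), (∀ a ∈ s, ∀ b ∈ s, a * b⁻¹ ∈ N → a = b) →
      ∀ d : S → D, (∀ a ∈ s, d a ∈ divClosure ψ N) →
      ∑ a ∈ s, d a * ψ (MonoidAlgebra.single a 1) = 0 → ∀ a ∈ s, d a = 0

/-- A finite chain of subgroups `N 0 ≤ N 1 ≤ ... ≤ N k = S`, each normal in the next one with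
bi-orderable quotient, such that either `E[N 0]` is a left Ore domain, or `N 0` is Ore indicable
and `E[N 0]` has an injective Hughes free homomorphism to a division ring. -/
def Tower (E : Type v) (S : Type u) [DivisionRing E] [Group S] : Prop :=
  ∃ (k : ℕ) (N : ℕ → Subgroup S), N k = ⊤ ∧
    ((NoZeroDivisors (MonoidAlgebra E (N 0)) ∧ OreCond (MonoidAlgebra E (N 0))) ∨
      (OreIndicable E (N 0) ∧ HasHughesFree E (N 0))) ∧
    ∀ i < k, N i ≤ N (i + 1) ∧ ∃ _ : ((N i).subgroupOf (N (i + 1))).Normal,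
      ∃ _ : LinearOrder (N (i + 1) ⧸ (N i).subgroupOf (N (i + 1))),
        MulLeftMono (N (i + 1) ⧸ (N i).subgroupOf (N (i + 1))) ∧
        MulRightMono (N (i + 1) ⧸ (N i).subgroupOf (N (i + 1)))

end Vale.Agent.P201
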