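import Mathlib.Algebra.GroupWithZero.Pointwise.Finset
import Mathlib.Algebra.Module.Submodule.Order
import Mathlib.Algebra.Order.Ring.Star
import Mathlib.Analysis.Subadditive
import Mathlib.Combinatorics.SimpleGraph.Acyclic
import Mathlib.Computability.Reduce
import Mathlib.Data.DFinsupp.WellFounded
import Mathlib.Data.Int.Star
import Mathlib.Data.Set.Opposite
import Mathlib.Geometry.Manifold.Algebra.Monoid
import Mathlib.GroupTheory.PushoutI
import Mathlib.Order.CompletePartialOrder
import Mathlib.RingTheory.DedekindDomain.SInteger
import Mathlib.RingTheory.HopkinsLevitzki
import Mathlib.Tactic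

/-! The part of Mathlib that the development of this folder uses. -/
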